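import Vale.Agent.P243.Defs
import Mathlib.MeasureTheory.Constructions.Pi
import Mathlib.MeasureTheory.Measure.Prod

/-!
Slicing the area in a plane.
-/

namespace Vale.Agent.P243

open MeasureTheory
open scoped InnerProductSpace ENNReal

noncomputable section

theorem continuous_planeProj (u : R3) : Continuous (planeProj u) :=
  continuous_id.sub
    (Continuous.smul (f := fun x : R3 => ⟪u, x⟫_ℝ) (g := fun _ => u)
      (continuous_const.inner continuous_id) continuous_const)

theorem measurableSet_prism (u : R3) {S : Set R3} (hS : MeasurableSet S) :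
    MeasurableSet {x : R3 | planeProj u x ∈ S ∧ ⟪u, x⟫_ℝ ∈ Set.Icc (0 : ℝ) 1} :=
  ((continuous_planeProj u).measurable hS).inter
    ((continuous_const.inner continuous_id).measurable measurableSet_Icc)

/-- A frame with two prescribed orthogonal unit vectors. -/
theorem exists_frame (u e : R3) (hu : ‖u‖ = 1) (he : ‖e‖ = 1) (hue : ⟪u, e⟫_ℝ = 0) :
    ∃ c : OrthonormalBasis (Fin 3) ℝ R3, c 1 = u ∧ c 2 = e := by
  set W : Submodule ℝ R3 := Submodule.span ℝ {u, e}
  have hW : Module.finrank ℝ W ≤ 2 := by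
    refine (finrank_span_le_card (R := ℝ) ({u, e} : Set R3)).trans ?_
    simpa using Finset.card_le_two (a := u) (b := e)
  have hne : Wᗮ ≠ ⊥ := by
    intro h
    have := W.finrank_add_finrank_orthogonal
    rw [h, finrank_bot, finrank_euclideanSpace_fin] at this
    omega
  obtain ⟨z, hz, hz0⟩ := Submodule.exists_mem_ne_zero_of_ne_bot hne
  set n : R3 := ‖z‖⁻¹ • z with hn
  have hnn : ‖n‖ = 1 := norm_smul_inv_norm hz0
  have hnW : n ∈ Wᗮ := Wᗮ.smul_mem _ hz
  have hnu : ⟪n, u⟫_ℝ = 0 :=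
    Submodule.inner_left_of_mem_orthogonal (Submodule.subset_span (by simp)) hnW
  have hne' : ⟪n, e⟫_ℝ = 0 :=
    Submodule.inner_left_of_mem_orthogonal (Submodule.subset_span (by simp)) hnW
  have hon : Orthonormal ℝ ![n, u, e] := by
    rw [orthonormal_iff_ite]
    intro i j
    fin_cases i <;> fin_cases j <;>
      simp [hnu, hne', hue, real_inner_comm n u, real_inner_comm n e, real_inner_comm u e,
        real_inner_self_eq_norm_sq, hnn, hu, he]
  have hsp : ⊤ ≤ Submodule.span ℝ (Set.range ![n, u, e]) :=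
    (hon.linearIndependent.span_eq_top_of_card_eq_finrank (by simp)).ge
  refine ⟨OrthonormalBasis.mk hon hsp, ?_, ?_⟩ <;> simp

/-- The area in the plane is the integral of the lengths of its slices. -/
theorem planeArea_eq_lintegral (c : OrthonormalBasis (Fin 3) ℝ R3) {S : Set R3}
    (hS : MeasurableSet S) :
    planeArea (c 1) S = ∫⁻ z : ℝ, volume {r : ℝ | r • c 0 + z • c 2 ∈ S} := by
  set X := {x : R3 | planeProj (c 1) x ∈ S ∧ ⟪c 1, x⟫_ℝ ∈ Set.Icc (0 : ℝ) 1}
  have hX : MeasurableSet X := measurableSet_prism _ hS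
  let e1 : ℝ × (Fin 2 → ℝ) ≃ᵐ (Fin 3 → ℝ) :=
    (MeasurableEquiv.piFinSuccAbove (fun _ => ℝ) 2).symm
  let e2 : ℝ × ℝ ≃ᵐ (Fin 2 → ℝ) := (MeasurableEquiv.finTwoArrow).symm
  let ψ : ℝ × (ℝ × ℝ) → R3 := fun p => c.repr.symm (WithLp.toLp 2 (e1 (p.1, e2 p.2)))
  have h1 : MeasurePreserving e1 volume volume :=
    (volume_preserving_piFinSuccAbove (fun _ : Fin 3 => ℝ) 2).symm _
  have h2 : MeasurePreserving e2 volume volume := (volume_preserving_finTwoArrow ℝ).symm _
  have h3 : MeasurePreserving (fun p : ℝ × (ℝ × ℝ) => (p.1, e2 p.2)) volume volume :=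
    (MeasurePreserving.id volume).prod h2
  have hψ : MeasurePreserving ψ volume volume :=
    (c.measurePreserving_repr_symm.comp
      ((PiLp.volume_preserving_toLp (ι := Fin 3)).comp (h1.comp h3)))
  have hval : ∀ (z r s : ℝ), ψ (z, r, s) = r • c 0 + s • c 1 + z • c 2 := by
    intro z r s
    have : c.repr.symm (WithLp.toLp 2 (e1 (z, e2 (r, s)))) =
        ∑ i, (e1 (z, e2 (r, s))) i • c i := by
      rw [← c.sum_repr_symm]
    simp only [ψ, this, Fin.sum_univ_three]
    congr 1
  have hin : ∀ (z r s : ℝ), ψ (z, r, s) ∈ X ↔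
      (r • c 0 + z • c 2 ∈ S ∧ s ∈ Set.Icc (0:ℝ) 1) := by
    intro z r s
    have ho := orthonormal_iff_ite.1 c.orthonormal
    have hi : ⟪c 1, r • c 0 + s • c 1 + z • c 2⟫_ℝ = s := by
      simp [inner_add_right, real_inner_smul_right, ho]
    simp only [X, Set.mem_setOf_eq, hval, hi, planeProj]
    rw [show r • c 0 + s • c 1 + z • c 2 - s • c 1 = r • c 0 + z • c 2 by abel]
  calc planeArea (c 1) S = volume (ψ ⁻¹' X) := (hψ.measure_preimage hX.nullMeasurableSet).symm
    _ = ∫⁻ z : ℝ, volume (Prod.mk z ⁻¹' (ψ ⁻¹' X)) := Measure.prod_apply (hψ.measurable hX)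
    _ = _ := by
      refine lintegral_congr fun z => ?_
      have : Prod.mk z ⁻¹' (ψ ⁻¹' X) = {r : ℝ | r • c 0 + z • c 2 ∈ S} ×ˢ Set.Icc (0:ℝ) 1 := by
        ext ⟨r, s⟩
        simpa using hin z r s
      rw [this, Measure.volume_eq_prod, Measure.prod_prod]
      simp

end

end Vale.Agent.P243
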