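import Mathlib.Analysis.InnerProductSpace.Basic
import Mathlib.Analysis.Convex.Basic
import Mathlib.MeasureTheory.Measure.Lebesgue.Basic
import Mathlib.Topology.MetricSpace.Pseudo.Lemmas

/-!
The plank theorem of Bang, also for planks over measurable sets.
-/

namespace Vale.Agent.P243

open Finset MeasureTheory
open scoped InnerProductSpace ENNReal

noncomputable section

variable {E : Type*} [NormedAddCommGroup E] [InnerProductSpace ℝ E]

/-- All differences of length at most `w` in the subspace `V` occur in `K`. -/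
def HasChords (V : Submodule ℝ E) (K : Set E) (w : ℝ) : Prop :=
  ∀ d ∈ V, ‖d‖ ≤ w → ∃ p ∈ K, p + d ∈ K

theorem exists_signed_translate {ι : Type*} [DecidableEq ι] (V : Submodule ℝ E) (s : Finset ι)
    (d : ι → E) (hd : ∀ i ∈ s, d i ∈ V) :
    ∀ (K : Set E) (w : ℝ), Convex ℝ K → HasChords V K w → ∑ i ∈ s, 2 * ‖d i‖ < w →
      ∃ t, ∀ ε : ι → ℝ, (∀ i, ε i = 1 ∨ ε i = -1) → t + ∑ i ∈ s, ε i • d i ∈ K := by
  induction s using Finset.induction_on with
  | empty =>
    intro K w _ hch hw
    obtain ⟨p, hp, -⟩ := hch 0 V.zero_mem (by simpa using (le_of_lt (by simpa using hw)))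
    exact ⟨p, fun ε _ => by simpa using hp⟩
  | insert a s ha ih =>
    intro K w hK hch hw
    rw [Finset.sum_insert ha] at hw
    have hrest : 0 ≤ ∑ i ∈ s, 2 * ‖d i‖ := Finset.sum_nonneg fun i _ => by positivity
    have ih' := ih (fun i hi => hd i (mem_insert_of_mem hi))
    by_cases h0 : d a = 0
    · obtain ⟨t, ht⟩ := ih' K w hK hch (by simpa [h0] using hw)
      exact ⟨t, fun ε hε => by simpa [Finset.sum_insert ha, h0] using ht ε hε⟩
    · have hpos : 0 < ‖d a‖ := norm_pos_iff.2 h0
      have hwpos : 0 < w := by linarith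
      set D : E := (w / ‖d a‖) • d a
      obtain ⟨p, hp, hpq⟩ := hch D (V.smul_mem _ (hd a (mem_insert_self a s))) (by
        simp only [D, norm_smul, Real.norm_eq_abs]
        rw [abs_of_pos (by positivity), div_mul_cancel₀ _ hpos.ne'])
      set l : ℝ := 1 - 2 * ‖d a‖ / w with hl
      have hl1 : l ≤ 1 := by
        have : 0 ≤ 2 * ‖d a‖ / w := by positivity
        linarith
      have hl0 : 0 < l := by
        have : 2 * ‖d a‖ / w < 1 := (div_lt_one hwpos).2 (by linarith)
        linarith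
      have hstep : (1 - l) • D = (2 : ℝ) • d a := by
        simp only [hl, D, smul_smul]
        congr 1
        field_simp
        ring
      let K' : Set E := (fun k => l • k + (1 - l) • p + d a) '' K
      have hK' : Convex ℝ K' := by
        rintro _ ⟨k, hk, rfl⟩ _ ⟨k', hk', rfl⟩ α β hα hβ hab
        refine ⟨α • k + β • k', hK hk hk' hα hβ hab, ?_⟩
        simp only [smul_add, smul_smul]
        rw [mul_comm l α, mul_comm l β]
        calc (α * l) • k + (β * l) • k' + (1 - l) • p + d a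
            = (α * l) • k + (β * l) • k' + ((α + β) * (1 - l)) • p + (α + β) • d a := by
              rw [hab, one_mul, one_smul]
          _ = _ := by rw [add_mul, add_smul, add_smul]; abel
      have hch' : HasChords V K' (l * w) := by
        intro z hz hzn
        obtain ⟨k, hk, hk'⟩ := hch (l⁻¹ • z) (V.smul_mem _ hz) (by
          rw [norm_smul, Real.norm_eq_abs, abs_of_pos (inv_pos.2 hl0), inv_mul_le_iff₀ hl0]
          exact hzn)
        refine ⟨_, ⟨k, hk, rfl⟩, ⟨k + l⁻¹ • z, hk', ?_⟩⟩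
        simp only [smul_add, smul_smul, mul_inv_cancel₀ hl0.ne', one_smul]
        abel
      have hlw : l * w = w - 2 * ‖d a‖ := by rw [hl]; field_simp
      obtain ⟨t, ht⟩ := ih' K' (l * w) hK' hch' (by linarith)
      refine ⟨t, fun ε hε => ?_⟩
      obtain ⟨k, hk, hke⟩ := ht ε hε
      rw [Finset.sum_insert ha, add_left_comm, ← hke]
      rcases hε a with h | h
      · rw [h, one_smul]
        have : d a + (l • k + (1 - l) • p + d a) = l • k + (1 - l) • (p + D) := by
          rw [smul_add, hstep, two_smul]; abel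
        rw [this]
        exact hK hk hpq hl0.le (by linarith) (by ring)
      · rw [h, neg_one_smul]
        have : -d a + (l • k + (1 - l) • p + d a) = l • k + (1 - l) • p := by abel
        rw [this]
        exact hK hk hp hl0.le (by linarith) (by ring)

/-- The plank theorem of Bang: planks covering a convex set with all chords up to length `w`
in a subspace containing their normals have total width at least `w`. -/
theorem bang {ι : Type*} [Fintype ι] (V : Submodule ℝ E) (K : Set E) (w : ℝ) (hK : Convex ℝ K)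
    (hch : HasChords V K w) (v : ι → E) (hvV : ∀ i, v i ∈ V) (hv : ∀ i, ‖v i‖ = 1)
    (c h : ι → ℝ) (hh : ∀ i, 0 ≤ h i)
    (hcov : ∀ x ∈ K, ∃ i, |⟪v i, x⟫_ℝ - c i| ≤ h i) : w ≤ ∑ i, 2 * h i := by
  classical
  by_contra hcon
  push Not at hcon
  set N : ℝ := (Fintype.card ι : ℝ) + 1
  set δ := (w - ∑ i, 2 * h i) / (4 * N) with hδ
  have hN : 0 < N := by positivity
  have hδ0 : 0 < δ := div_pos (by linarith) (by positivity)
  set H : ι → ℝ := fun i => h i + δ
  have hH : ∀ i, 0 < H i := fun i => add_pos_of_nonneg_of_pos (hh i) hδ0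
  have hnorm : ∀ i, ‖H i • v i‖ = H i := fun i => by
    rw [norm_smul, hv i, mul_one, Real.norm_of_nonneg (hH i).le]
  have hsum : ∑ i, 2 * ‖H i • v i‖ < w := by
    simp only [hnorm, H, mul_add, Finset.sum_add_distrib, Finset.sum_const, card_univ,
      nsmul_eq_mul]
    have e : δ * (4 * N) = w - ∑ i, 2 * h i := div_mul_cancel₀ _ (by positivity)
    have : (Fintype.card ι : ℝ) * (2 * δ) ≤ δ * (4 * N) / 2 := by
      simp only [N]; nlinarith
    linarith
  obtain ⟨t, ht⟩ := exists_signed_translate V univ (fun i => H i • v i)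
    (fun i _ => V.smul_mem _ (hvV i)) K w hK hch hsum
  let S : (ι → Bool) → E := fun b => ∑ i, (if b i then (1:ℝ) else -1) • H i • v i
  let f : (ι → Bool) → ℝ := fun b =>
    ‖S b‖ ^ 2 - 2 * ∑ i, (if b i then (1:ℝ) else -1) * H i * (c i - ⟪v i, t⟫_ℝ)
  obtain ⟨b, hb⟩ := Finite.exists_max f
  obtain ⟨i, hi⟩ := hcov (t + S b)
    (ht (fun i => if b i then (1:ℝ) else -1) fun i => by cases b i <;> simp)
  set σ : ℝ := if b i then (1:ℝ) else -1 with hσdef
  have hσ : σ = 1 ∨ σ = -1 := by cases hb' : b i <;> simp [hσdef, hb']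
  let b' := Function.update b i (!b i)
  have hdiff : ∀ j, (if b' j then (1:ℝ) else -1) =
      (if b j then (1:ℝ) else -1) + (if j = i then -2 * σ else 0) := by
    intro j
    by_cases hj : j = i
    · subst hj; cases hb' : b j <;> simp [b', hσdef, hb'] <;> norm_num
    · simp [b', hj]
  have hS : S b' = S b + (-2 * σ * H i) • v i := by
    simp only [S, hdiff, add_smul, Finset.sum_add_distrib]
    simp [smul_smul]
  have hA : ∑ j, (if b' j then (1:ℝ) else -1) * H j * (c j - ⟪v j, t⟫_ℝ) =
      ∑ j, (if b j then (1:ℝ) else -1) * H j * (c j - ⟪v j, t⟫_ℝ)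
        + -2 * σ * H i * (c i - ⟪v i, t⟫_ℝ) := by
    simp only [hdiff, add_mul, Finset.sum_add_distrib]
    simp
  have hmax := hb b'
  simp only [f] at hmax
  rw [hS, hA, norm_add_sq_real, norm_smul, hv i, mul_one, Real.norm_eq_abs, sq_abs,
    inner_smul_right, real_inner_comm] at hmax
  have hgain : H i ≤ σ * (⟪v i, t + S b⟫_ℝ - c i) := by
    rw [inner_add_right]
    have h4 : (-2 * σ * H i) ^ 2 = 4 * H i ^ 2 := by rcases hσ with e | e <;> rw [e] <;> ring
    rw [h4] at hmax
    have : 0 ≤ H i * (σ * (⟪v i, t⟫_ℝ + ⟪v i, S b⟫_ℝ - c i) - H i) := by nlinarith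
    nlinarith [hH i]
  have : σ * (⟪v i, t + S b⟫_ℝ - c i) ≤ |⟪v i, t + S b⟫_ℝ - c i| := by
    rcases hσ with e | e <;> rw [e]
    · rw [one_mul]; exact le_abs_self _
    · rw [neg_one_mul]; exact neg_le_abs _
  have : H i ≤ h i := le_trans hgain (this.trans hi)
  simp only [H] at this
  linarith

/-- Covering by planks over arbitrary sets of reals. -/
theorem bang_measure {ι : Type*} [Fintype ι] (V : Submodule ℝ E) (K : Set E) (w : ℝ)
    (hK : Convex ℝ K) (hKc : IsCompact K) (hch : HasChords V K w) (v : ι → E)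
    (hvV : ∀ i, v i ∈ V) (hv : ∀ i, ‖v i‖ = 1) (S : ι → Set ℝ)
    (hcov : ∀ x ∈ K, ∃ i, ⟪v i, x⟫_ℝ ∈ S i) : ENNReal.ofReal w ≤ ∑ i, volume (S i) := by
  classical
  by_cases hfin : ∃ i, volume (S i) = ∞
  · obtain ⟨i, hi⟩ := hfin
    refine le_top.trans (le_of_eq ?_)
    exact (ENNReal.sum_eq_top.2 ⟨i, mem_univ i, hi⟩).symm
  push Not at hfin
  refine ENNReal.le_of_forall_pos_le_add fun η hη _ => ?_
  set n := Fintype.card ι + 1
  have hex : ∀ i, ∃ U : Set ℝ, S i ⊆ U ∧ IsOpen U ∧
      volume U ≤ volume (S i) + (η : ℝ≥0∞) / n := by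
    intro i
    obtain ⟨U, hSU, hU, hlt⟩ := Set.exists_isOpen_lt_add (μ := volume) (S i) (hfin i)
      (ε := (η : ℝ≥0∞) / n) (by simp [hη.ne'])
    exact ⟨U, hSU, hU, hlt.le⟩
  choose U hSU hU hvol using hex
  obtain ⟨δ, hδ, hball⟩ := lebesgue_number_lemma_of_metric hKc
    (c := fun i => (fun x => ⟪v i, x⟫_ℝ) ⁻¹' U i)
    (fun i => (hU i).preimage (continuous_const.inner continuous_id))
    (fun x hx => by
      obtain ⟨i, hi⟩ := hcov x hx
      exact Set.mem_iUnion.2 ⟨i, hSU i hi⟩)
  obtain ⟨R, hR⟩ := hKc.isBounded.exists_norm_le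
  set m := δ / 2 with hm
  have hm0 : 0 < m := by positivity
  let G : ι → Finset ℤ := fun i =>
    (Finset.Icc ⌊-R / m⌋ ⌊R / m⌋).filter fun k => Set.Icc (k * m) ((k + 1) * m) ⊆ U i
  have hdisj : ∀ i, (↑(G i) : Set ℤ).PairwiseDisjoint
      fun k : ℤ => Set.Ico ((k:ℝ) * m) (((k:ℝ) + 1) * m) := by
    intro i a _ b _ hab
    rw [Function.onFun, Set.disjoint_left]
    intro r hr hr'
    have h1 : (a:ℝ) < b + 1 := lt_of_mul_lt_mul_right (hr.1.trans_lt hr'.2) hm0.le
    have h2 : (b:ℝ) < a + 1 := lt_of_mul_lt_mul_right (hr'.1.trans_lt hr.2) hm0.le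
    have h1' : a < b + 1 := by exact_mod_cast h1
    have h2' : b < a + 1 := by exact_mod_cast h2
    omega
  have hlen : ∀ i, ENNReal.ofReal (#(G i) * m) ≤ volume (U i) := by
    intro i
    have h1 : volume (⋃ k ∈ G i, Set.Ico ((k:ℝ) * m) (((k:ℝ) + 1) * m)) ≤ volume (U i) :=
      measure_mono (Set.iUnion₂_subset fun k hk =>
        Set.Ico_subset_Icc_self.trans (mem_filter.1 hk).2)
    rw [measure_biUnion_finset (hdisj i) (fun k _ => measurableSet_Ico)] at h1
    refine le_trans (le_of_eq ?_) h1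
    simp [Real.volume_Ico, add_mul, ENNReal.ofReal_mul]
  have hB := bang (ι := (i : ι) × (G i)) V K w hK hch (fun p => v p.1) (fun p => hvV p.1)
    (fun p => hv p.1) (fun p => ((p.2.1 : ℝ) + 1 / 2) * m) (fun _ => m / 2)
    (fun _ => by positivity) (by
      intro x hx
      obtain ⟨i, hi⟩ := hball x hx
      set r := ⟪v i, x⟫_ℝ
      have hrR : |r| ≤ R := by
        refine (abs_real_inner_le_norm _ _).trans ?_
        rw [hv i, one_mul]; exact hR x hx
      set k := ⌊r / m⌋
      have h1 : (k:ℝ) * m ≤ r := (le_div_iff₀ hm0).1 (Int.floor_le _)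
      have h2 : r < ((k:ℝ) + 1) * m := (div_lt_iff₀ hm0).1 (Int.lt_floor_add_one _)
      have hkG : k ∈ G i := by
        refine mem_filter.2 ⟨mem_Icc.2 ⟨?_, ?_⟩, fun y hy => ?_⟩
        · exact Int.floor_le_floor (by gcongr; linarith [neg_abs_le r])
        · exact Int.floor_le_floor (by gcongr; exact (le_abs_self r).trans hrR)
        · have hz : x + (y - r) • v i ∈ Metric.ball x δ := by
            rw [Metric.mem_ball, dist_eq_norm, add_sub_cancel_left, norm_smul, hv i, mul_one,
              Real.norm_eq_abs, abs_lt]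
            constructor <;> nlinarith [hy.1, hy.2]
          have := hi hz
          simp only [Set.mem_preimage, inner_add_right, real_inner_smul_right,
            real_inner_self_eq_norm_sq, hv i, one_pow, mul_one] at this
          simpa [r] using this
      refine ⟨⟨i, ⟨k, hkG⟩⟩, ?_⟩
      show |r - ((k:ℝ) + 1 / 2) * m| ≤ m / 2
      rw [abs_le]; constructor <;> linarith)
  calc ENNReal.ofReal w ≤ ENNReal.ofReal (∑ i, (#(G i) : ℝ) * m) := by
        refine ENNReal.ofReal_le_ofReal (hB.trans (le_of_eq ?_))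
        simp [mul_div_cancel₀, Finset.sum_mul]
    _ = ∑ i, ENNReal.ofReal ((#(G i) : ℝ) * m) :=
        ENNReal.ofReal_sum_of_nonneg fun i _ => by positivity
    _ ≤ ∑ i, (volume (S i) + (η : ℝ≥0∞) / n) :=
        Finset.sum_le_sum fun i _ => (hlen i).trans (hvol i)
    _ ≤ ∑ i, volume (S i) + η := by
        rw [Finset.sum_add_distrib, Finset.sum_const, card_univ, nsmul_eq_mul]
        gcongr
        calc (Fintype.card ι : ℝ≥0∞) * ((η : ℝ≥0∞) / n) ≤ (n : ℝ≥0∞) * ((η : ℝ≥0∞) / n) := by
              gcongr; exact Nat.le_succ _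
          _ = η := ENNReal.mul_div_cancel (by simp [n]) (by simp)

end

end Vale.Agent.P243
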