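import Vale.Agent.P243.Bang
import Vale.Agent.P243.Area
import Mathlib.Analysis.LocallyConvex.Separation
import Mathlib.Analysis.InnerProductSpace.Dual
import Mathlib.MeasureTheory.Group.LIntegral
import Mathlib.MeasureTheory.Measure.Haar.Unique

/-!
The half-area bound for cylinders with axes parallel to a common plane.
-/

namespace Vale.Agent.P243

open MeasureTheory
open scoped InnerProductSpace ENNReal Pointwise

noncomputable section

/-- Slice of a set at height `z` in direction `e`. -/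
def levelSlice (e : R3) (K : Set R3) (z : ℝ) : Set R3 := {x | x ∈ K ∧ ⟪e, x⟫_ℝ = z}

theorem isCompact_levelSlice {K : Set R3} (e : R3) (hK : IsCompact K) (z : ℝ) :
    IsCompact (levelSlice e K z) :=
  hK.inter_right (isClosed_eq (continuous_const.inner continuous_id) continuous_const)

theorem convex_levelSlice {K : Set R3} (e : R3) (hK : Convex ℝ K) (z : ℝ) :
    Convex ℝ (levelSlice e K z) := by
  rintro x ⟨hx, hxz⟩ y ⟨hy, hyz⟩ a b ha hb hab
  refine ⟨hK hx hy ha hb hab, ?_⟩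
  rw [inner_add_right, real_inner_smul_right, real_inner_smul_right, hxz, hyz, ← add_mul, hab,
    one_mul]

theorem levelSlice_nonempty {K : Set R3} (e : R3) (hK : Convex ℝ K) {p q : R3} (hp : p ∈ K)
    (hq : q ∈ K) {z : ℝ} (h1 : ⟪e, p⟫_ℝ ≤ z) (h2 : z ≤ ⟪e, q⟫_ℝ) :
    (levelSlice e K z).Nonempty := by
  rcases h1.eq_or_lt with h | h
  · exact ⟨p, hp, h⟩
  · set θ := (z - ⟪e, p⟫_ℝ) / (⟪e, q⟫_ℝ - ⟪e, p⟫_ℝ)
    have hd : 0 < ⟪e, q⟫_ℝ - ⟪e, p⟫_ℝ := by linarith
    refine ⟨(1 - θ) • p + θ • q, hK hp hq ?_ ?_ (by ring), ?_⟩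
    · rw [sub_nonneg, div_le_one hd]; linarith
    · exact div_nonneg (by linarith) hd.le
    · rw [inner_add_right, real_inner_smul_right, real_inner_smul_right]
      simp only [θ]; field_simp; ring

theorem planeProj_eq_of_frame (c : OrthonormalBasis (Fin 3) ℝ R3) (x : R3) :
    planeProj (c 1) x = ⟪c 0, x⟫_ℝ • c 0 + ⟪c 2, x⟫_ℝ • c 2 := by
  have h := c.sum_repr' x
  rw [Fin.sum_univ_three] at h
  rw [planeProj, sub_eq_iff_eq_add]
  calc x = _ := h.symm
    _ = _ := by abel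

theorem inner_frame (c : OrthonormalBasis (Fin 3) ℝ R3) (r z : ℝ) :
    ⟪c 0, r • c 0 + z • c 2⟫_ℝ = r ∧ ⟪c 2, r • c 0 + z • c 2⟫_ℝ = z := by
  have ho := orthonormal_iff_ite.1 c.orthonormal
  constructor <;> simp [inner_add_right, real_inner_smul_right, ho]

/-- Step one: in every horizontal direction the middle slice is wide. -/
theorem middle_width (K : Set R3) (hK : Convex ℝ K) (hKc : IsCompact K) (e ν : R3) (he : ‖e‖ = 1)
    (hν : ‖ν‖ = 1) (hνe : ⟪ν, e⟫_ℝ = 0) (pa pb : R3) (hpa : pa ∈ K) (hpb : pb ∈ K)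
    (hmin : ∀ x ∈ K, ⟪e, pa⟫_ℝ ≤ ⟪e, x⟫_ℝ) (hmax : ∀ x ∈ K, ⟪e, x⟫_ℝ ≤ ⟪e, pb⟫_ℝ) :
    ∃ p ∈ levelSlice e K ((⟪e, pa⟫_ℝ + ⟪e, pb⟫_ℝ) / 2),
      ∃ q ∈ levelSlice e K ((⟪e, pa⟫_ℝ + ⟪e, pb⟫_ℝ) / 2),
        minProjArea K ≤ ENNReal.ofReal ((⟪e, pb⟫_ℝ - ⟪e, pa⟫_ℝ) * ⟪ν, p - q⟫_ℝ) := by
  set a := ⟪e, pa⟫_ℝ
  set b := ⟪e, pb⟫_ℝ
  set z₀ := (a + b) / 2 with hz₀
  have hab : a ≤ b := hmin pb hpb
  have hne : ∀ z ∈ Set.Icc a b, (levelSlice e K z).Nonempty := fun z hz =>
    levelSlice_nonempty e hK hpa hpb hz.1 hz.2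
  have hz₀mem : z₀ ∈ Set.Icc a b := ⟨by linarith, by linarith⟩
  have hf : Continuous fun x : R3 => ⟪ν, x⟫_ℝ := continuous_const.inner continuous_id
  obtain ⟨p, hp, hpmax⟩ := (isCompact_levelSlice e hKc z₀).exists_isMaxOn (hne _ hz₀mem)
    hf.continuousOn
  obtain ⟨q, hq, hqmin⟩ := (isCompact_levelSlice e hKc z₀).exists_isMinOn (hne _ hz₀mem)
    hf.continuousOn
  refine ⟨p, hp, q, hq, ?_⟩
  set W := ⟪ν, p - q⟫_ℝ with hWdef
  -- a frame with `ν` and `e`
  obtain ⟨c0, h0ν, h0e⟩ := exists_frame ν e hν he hνe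
  obtain ⟨c, hc1, hc2⟩ := exists_frame (c0 0) e (c0.orthonormal.1 0) he (by
    have ho := orthonormal_iff_ite.1 c0.orthonormal
    rw [← h0e]; simp [ho])
  have hc0 : ∃ s : ℝ, (s = 1 ∨ s = -1) ∧ c 0 = s • ν := by
    have ho := orthonormal_iff_ite.1 c0.orthonormal
    have hc := orthonormal_iff_ite.1 c.orthonormal
    have e1 : ⟪c0 0, c 0⟫_ℝ = 0 := by rw [← hc1]; simp [hc]
    have e2 : ⟪c0 2, c 0⟫_ℝ = 0 := by rw [h0e, ← hc2]; simp [hc]
    have h := c0.sum_repr' (c 0)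
    rw [Fin.sum_univ_three, e1, e2, h0ν] at h
    simp at h
    set s := ⟪ν, c 0⟫_ℝ
    have h2 : ‖s • ν‖ = 1 := by rw [h]; exact c.orthonormal.1 0
    rw [norm_smul, hν, mul_one, Real.norm_eq_abs] at h2
    exact ⟨s, (abs_eq zero_le_one).1 h2, h.symm⟩
  obtain ⟨s, hs, hc0⟩ := hc0
  have hu : minProjArea K ≤ planeArea (c 1) (planeProj (c 1) '' K) :=
    iInf₂_le (f := fun (u : R3) (_ : ‖u‖ = 1) => planeArea u (planeProj u '' K)) (c 1)
      (c.orthonormal.1 1)
  rw [planeArea_eq_lintegral c (hKc.image (continuous_planeProj _)).measurableSet] at hu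
  set L : ℝ → ℝ≥0∞ := fun z => volume {r : ℝ | r • c 0 + z • c 2 ∈ planeProj (c 1) '' K}
  have hmem : ∀ z r, r • c 0 + z • c 2 ∈ planeProj (c 1) '' K →
      ∃ x ∈ levelSlice e K z, s * ⟪ν, x⟫_ℝ = r := by
    rintro z r ⟨x, hx, hxe⟩
    rw [planeProj_eq_of_frame] at hxe
    have h1 := congrArg (fun y => ⟪c 0, y⟫_ℝ) hxe
    have h2 := congrArg (fun y => ⟪c 2, y⟫_ℝ) hxe
    simp only [(inner_frame c _ _).1, (inner_frame c _ _).2] at h1 h2
    rw [hc0, real_inner_smul_left] at h1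
    rw [hc2] at h2
    exact ⟨x, ⟨hx, h2⟩, h1⟩
  have hout : ∀ z, z ∉ Set.Icc a b → L z = 0 := by
    intro z hz
    have : {r : ℝ | r • c 0 + z • c 2 ∈ planeProj (c 1) '' K} = ∅ := by
      refine Set.eq_empty_iff_forall_notMem.2 fun r hr => ?_
      obtain ⟨x, ⟨hx, hxz⟩, -⟩ := hmem z r hr
      exact hz (hxz ▸ ⟨hmin x hx, hmax x hx⟩)
    show volume _ = 0
    rw [this]; exact measure_empty
  have hpair : ∀ z ∈ Set.Icc a b, L z + L (2 * z₀ - z) ≤ ENNReal.ofReal (2 * W) := by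
    intro z hz
    have hz' : 2 * z₀ - z ∈ Set.Icc a b := ⟨by linarith [hz.2], by linarith [hz.1]⟩
    have key : ∀ z ∈ Set.Icc a b, ∃ p' ∈ levelSlice e K z, ∃ q' ∈ levelSlice e K z,
        0 ≤ ⟪ν, p' - q'⟫_ℝ ∧ L z ≤ ENNReal.ofReal ⟪ν, p' - q'⟫_ℝ := by
      intro z hz
      obtain ⟨p', hp', hp'max⟩ := (isCompact_levelSlice e hKc z).exists_isMaxOn (hne _ hz)
        hf.continuousOn
      obtain ⟨q', hq', hq'min⟩ := (isCompact_levelSlice e hKc z).exists_isMinOn (hne _ hz)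
        hf.continuousOn
      refine ⟨p', hp', q', hq', ?_, ?_⟩
      · rw [inner_sub_right, sub_nonneg]; exact hq'min hp'
      · rw [inner_sub_right]
        rcases hs with h | h
        · refine le_trans (measure_mono fun r hr => ?_)
            (le_of_eq (Real.volume_Icc (a := ⟪ν, q'⟫_ℝ) (b := ⟪ν, p'⟫_ℝ)))
          obtain ⟨x, hx, rfl⟩ := hmem z r hr
          rw [h, one_mul]
          exact ⟨hq'min hx, hp'max hx⟩
        · refine le_trans (measure_mono fun r hr => ?_)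
            (le_of_eq ((Real.volume_Icc (a := -⟪ν, p'⟫_ℝ) (b := -⟪ν, q'⟫_ℝ)).trans
              (by rw [neg_sub_neg])))
          obtain ⟨x, hx, rfl⟩ := hmem z r hr
          rw [h, neg_one_mul]
          exact ⟨neg_le_neg (hp'max hx), neg_le_neg (hq'min hx)⟩
    obtain ⟨p1, hp1, q1, hq1, hn1, hl1⟩ := key z hz
    obtain ⟨p2, hp2, q2, hq2, hn2, hl2⟩ := key _ hz'
    refine (add_le_add hl1 hl2).trans ?_
    rw [← ENNReal.ofReal_add hn1 hn2]
    refine ENNReal.ofReal_le_ofReal ?_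
    have mid : ∀ x y : R3, x ∈ levelSlice e K z → y ∈ levelSlice e K (2 * z₀ - z) →
        (1 / 2 : ℝ) • x + (1 / 2 : ℝ) • y ∈ levelSlice e K z₀ := by
      rintro x y ⟨hx, hxz⟩ ⟨hy, hyz⟩
      refine ⟨hK hx hy (by norm_num) (by norm_num) (by norm_num), ?_⟩
      rw [inner_add_right, real_inner_smul_right, real_inner_smul_right, hxz, hyz]; ring
    have hA : ⟪ν, (1 / 2 : ℝ) • p1 + (1 / 2 : ℝ) • p2⟫_ℝ ≤ ⟪ν, p⟫_ℝ := hpmax (mid _ _ hp1 hp2)
    have hB : ⟪ν, q⟫_ℝ ≤ ⟪ν, (1 / 2 : ℝ) • q1 + (1 / 2 : ℝ) • q2⟫_ℝ := hqmin (mid _ _ hq1 hq2)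
    simp only [hWdef, inner_sub_right, inner_add_right, real_inner_smul_right] at *
    linarith
  have hrefl : ∫⁻ z, L (2 * z₀ - z) = ∫⁻ z, L z := lintegral_sub_left_eq_self L (2 * z₀)
  have h2 : minProjArea K + minProjArea K ≤ ENNReal.ofReal (2 * W) * ENNReal.ofReal (b - a) :=
    calc minProjArea K + minProjArea K ≤ (∫⁻ z, L z) + ∫⁻ z, L (2 * z₀ - z) :=
          add_le_add hu (hrefl.symm ▸ hu)
      _ ≤ ∫⁻ z, (L z + L (2 * z₀ - z)) := le_lintegral_add _ _
      _ ≤ ∫⁻ z, (Set.Icc a b).indicator (fun _ => ENNReal.ofReal (2 * W)) z := by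
          refine lintegral_mono fun z => ?_
          by_cases hz : z ∈ Set.Icc a b
          · rw [Set.indicator_of_mem hz]; exact hpair z hz
          · have hz' : 2 * z₀ - z ∉ Set.Icc a b := fun h => hz ⟨by linarith [h.2], by linarith [h.1]⟩
            simp [hout z hz, hout _ hz']
      _ = _ := by rw [lintegral_indicator_const measurableSet_Icc, Real.volume_Icc]
  have hW0 : 0 ≤ W := by rw [hWdef, inner_sub_right, sub_nonneg]; exact hqmin hp
  have h3 : ENNReal.ofReal (2 * W) * ENNReal.ofReal (b - a) =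
      ENNReal.ofReal ((b - a) * W) + ENNReal.ofReal ((b - a) * W) := by
    rw [← ENNReal.ofReal_mul (by positivity),
      ← ENNReal.ofReal_add (mul_nonneg (by linarith) hW0) (mul_nonneg (by linarith) hW0)]
    ring_nf
  rw [h3, ← two_mul, ← two_mul] at h2
  exact (ENNReal.mul_le_mul_iff_right (by simp) (by simp)).1 h2

/-- Half of the least projection area, for axes parallel to a common plane. -/
theorem half_area_of_coplanar_axes {m : ℕ} (K : Set R3) (hK : Convex ℝ K) (hKc : IsCompact K)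
    (hKi : (interior K).Nonempty) (e : R3) (he : ‖e‖ = 1) (u : Fin m → R3)
    (hu : ∀ i, ‖u i‖ = 1) (hue : ∀ i, ⟪u i, e⟫_ℝ = 0) (B : Fin m → Set R3)
    (hB : ∀ i, MeasurableSet (B i)) (hBperp : ∀ i, ∀ b ∈ B i, ⟪u i, b⟫_ℝ = 0)
    (hcov : K ⊆ ⋃ i, cylinder (u i) (B i)) :
    minProjArea K / 2 ≤ ∑ i, planeArea (u i) (B i) := by
  classical
  obtain ⟨x0, hx0⟩ := hKi
  obtain ⟨ρ, hρ, hball⟩ := Metric.isOpen_iff.1 isOpen_interior x0 hx0
  have hKne : K.Nonempty := ⟨x0, interior_subset hx0⟩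
  have hf : Continuous fun x : R3 => ⟪e, x⟫_ℝ := continuous_const.inner continuous_id
  obtain ⟨pa, hpa, hmin⟩ := hKc.exists_isMinOn hKne hf.continuousOn
  obtain ⟨pb, hpb, hmax⟩ := hKc.exists_isMaxOn hKne hf.continuousOn
  set a := ⟪e, pa⟫_ℝ
  set b := ⟪e, pb⟫_ℝ
  have hab : a < b := by
    have hin : ∀ t : ℝ, |t| < ρ → x0 + t • e ∈ K := fun t ht => interior_subset (hball (by
      rw [Metric.mem_ball, dist_eq_norm, add_sub_cancel_left, norm_smul, he, mul_one]
      simpa using ht))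
    have h1 := hmax (hin (ρ / 2) (by rw [abs_of_pos (by positivity)]; linarith))
    have h2 := hmin (hin (-(ρ / 2)) (by rw [abs_neg, abs_of_pos (by positivity)]; linarith))
    simp only [Set.mem_setOf_eq, inner_add_right, real_inner_smul_right,
      real_inner_self_eq_norm_sq, he] at h1 h2
    linarith
  set z₀ := (a + b) / 2 with hz₀
  set H := (b - a) / 2 with hH
  have hH0 : 0 < H := by rw [hH]; linarith
  have hwide : ∀ ν : R3, ‖ν‖ = 1 → ⟪ν, e⟫_ℝ = 0 → ∃ p ∈ levelSlice e K z₀,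
      ∃ q ∈ levelSlice e K z₀,
        minProjArea K ≤ ENNReal.ofReal ((b - a) * ⟪ν, p - q⟫_ℝ) :=
    fun ν h1 h2 => middle_width K hK hKc e ν he h1 h2 pa pb hpa hpb (fun x hx => hmin hx)
      fun x hx => hmax hx
  have hfin : minProjArea K ≠ ∞ := by
    obtain ⟨n, hn, hn'⟩ : ∃ n : R3, ‖n‖ = 1 ∧ ⟪n, e⟫_ℝ = 0 := by
      obtain ⟨c, hc1, hc2⟩ : ∃ c : OrthonormalBasis (Fin 3) ℝ R3, c 2 = e ∧ True := by
        obtain ⟨c, hc⟩ := (Orthonormal.exists_orthonormalBasis_extension_of_card_eq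
          (𝕜 := ℝ) (E := R3) (ι := Fin 3) (by simp) (v := fun _ => e) (s := {2})
          (orthonormal_iff_ite.2 fun i j => by
            simp [he, Subsingleton.elim i j]))
        exact ⟨c, hc 2 (by simp), trivial⟩
      refine ⟨c 0, c.orthonormal.1 0, ?_⟩
      rw [← hc1]; simp [orthonormal_iff_ite.1 c.orthonormal]
    obtain ⟨p, -, q, -, hpq⟩ := hwide n hn hn'
    exact ne_top_of_le_ne_top ENNReal.ofReal_ne_top hpq
  set A := (minProjArea K).toReal with hAdef
  set W := A / (b - a) with hWdef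
  have hW : 0 ≤ W := div_nonneg ENNReal.toReal_nonneg (by linarith)
  let V : Submodule ℝ R3 := (ℝ ∙ e)ᗮ
  have hV : ∀ d, d ∈ V ↔ ⟪e, d⟫_ℝ = 0 := fun d => Submodule.mem_orthogonal_singleton_iff_inner_right
  set S₀ := levelSlice e K z₀
  have hS₀ne : S₀.Nonempty := levelSlice_nonempty e hK hpa hpb
    (by rw [hz₀]; linarith) (by rw [hz₀]; linarith)
  have hmid : HasChords V S₀ W := by
    intro d hd hdn
    by_cases hin : d ∈ S₀ - S₀
    · obtain ⟨q, hq, p, hp, rfl⟩ := Set.mem_sub.1 hin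
      exact ⟨p, hp, by simpa using hq⟩
    · exfalso
      have hc : IsCompact (S₀ - S₀) := by
        rw [← Set.image2_sub, ← Set.image_prod fun a b : R3 => a - b]
        exact ((isCompact_levelSlice e hKc z₀).prod (isCompact_levelSlice e hKc z₀)).image
          continuous_sub
      obtain ⟨f, c, hfc, hcd⟩ := geometric_hahn_banach_closed_point
        ((convex_levelSlice e hK z₀).sub (convex_levelSlice e hK z₀)) hc.isClosed hin
      set g := (InnerProductSpace.toDual ℝ R3).symm f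
      have hg : ∀ x, ⟪g, x⟫_ℝ = f x := fun x => InnerProductSpace.toDual_symm_apply
      set g' := g - ⟪e, g⟫_ℝ • e
      have hg'e : ⟪g', e⟫_ℝ = 0 := by
        simp [g', inner_sub_left, real_inner_smul_left, he, real_inner_comm e g]
      have hg'V : ∀ x, ⟪e, x⟫_ℝ = 0 → ⟪g', x⟫_ℝ = f x := fun x hx => by
        simp [g', inner_sub_left, real_inner_smul_left, hx, hg]
      have hc0 : 0 < c := by
        obtain ⟨x, hx⟩ := hS₀ne
        simpa using hfc 0 (Set.mem_sub.2 ⟨x, hx, x, hx, sub_self x⟩)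
      have hg'0 : g' ≠ 0 := by
        intro h
        have := hg'V d ((hV d).1 hd)
        rw [h, inner_zero_left] at this
        linarith
      have hgn : 0 < ‖g'‖ := norm_pos_iff.2 hg'0
      obtain ⟨p, hp, q, hq, hpq⟩ := hwide (‖g'‖⁻¹ • g') (norm_smul_inv_norm hg'0)
        (by rw [real_inner_smul_left, hg'e, mul_zero])
      rw [real_inner_smul_left] at hpq
      have hpq' : ⟪g', p - q⟫_ℝ = f (p - q) := hg'V _ (by rw [inner_sub_right, hp.2, hq.2, sub_self])
      have hlt : f (p - q) < c := hfc _ (Set.sub_mem_sub hp hq)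
      have hdW : f d ≤ W * ‖g'‖ := by
        rw [← hg'V d ((hV d).1 hd)]
        exact (real_inner_le_norm _ _).trans (by rw [mul_comm]; gcongr)
      have hA : A ≤ (b - a) * (‖g'‖⁻¹ * ⟪g', p - q⟫_ℝ) := by
        rcases le_or_gt 0 ((b - a) * (‖g'‖⁻¹ * ⟪g', p - q⟫_ℝ)) with h | h
        · exact ENNReal.toReal_le_of_le_ofReal h hpq
        · rw [ENNReal.ofReal_of_nonpos h.le] at hpq
          have : A = 0 := by simp [hAdef, le_antisymm hpq zero_le]
          rw [hWdef, this, zero_div, zero_mul] at hdW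
          linarith
      have : W ≤ ‖g'‖⁻¹ * ⟪g', p - q⟫_ℝ := by
        rw [hWdef, div_le_iff₀ (by linarith)]; linarith
      rw [hpq', inv_mul_eq_div, le_div_iff₀ hgn] at this
      linarith
  -- chords in the other slices
  have hother : ∀ (pt : R3), pt ∈ K → ∀ t : ℝ, 0 ≤ t → t ≤ 1 →
      HasChords V (levelSlice e K (t * z₀ + (1 - t) * ⟪e, pt⟫_ℝ)) (t * W) := by
    intro pt hpt t ht0 ht1 d hd hdn
    have hmk : ∀ x ∈ S₀, t • x + (1 - t) • pt ∈
        levelSlice e K (t * z₀ + (1 - t) * ⟪e, pt⟫_ℝ) := fun x hx =>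
      ⟨hK hx.1 hpt ht0 (by linarith) (by ring), by
        rw [inner_add_right, real_inner_smul_right, real_inner_smul_right, hx.2]⟩
    rcases ht0.eq_or_lt with rfl | ht
    · obtain ⟨x, hx⟩ := hS₀ne
      rw [zero_mul] at hdn
      exact ⟨_, hmk x hx, by rw [norm_le_zero_iff.1 hdn, add_zero]; exact hmk x hx⟩
    · obtain ⟨x, hx, hx'⟩ := hmid (t⁻¹ • d) (V.smul_mem _ hd) (by
        rw [norm_smul, Real.norm_eq_abs, abs_of_pos (inv_pos.2 ht), inv_mul_le_iff₀ ht]
        exact hdn)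
      refine ⟨_, hmk x hx, ?_⟩
      convert hmk _ hx' using 1
      rw [smul_add, smul_smul, mul_inv_cancel₀ ht.ne', one_smul]; abel
  -- frames of the cylinders and their slices
  choose c hc1 hc2 using fun i => exists_frame (u i) e (hu i) he (hue i)
  set F : Fin m → ℝ → ℝ≥0∞ := fun i z => volume {r : ℝ | r • c i 0 + z • c i 2 ∈ B i}
  have hFmeas : ∀ i, Measurable (F i) := fun i =>
    measurable_measure_prodMk_left (ν := volume)
      (s := {p : ℝ × ℝ | p.2 • c i 0 + p.1 • c i 2 ∈ B i})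
      (((measurable_snd.smul_const (c i 0)).add (measurable_fst.smul_const (c i 2))) (hB i))
  set T : ℝ → ℝ≥0∞ := fun z => ∑ i, F i z
  have hTmeas : Measurable T := Finset.measurable_sum _ fun i _ => hFmeas i
  have hbang : ∀ z w, HasChords V (levelSlice e K z) w → ENNReal.ofReal w ≤ T z := by
    intro z w hw
    refine bang_measure V _ w (convex_levelSlice e hK z) (isCompact_levelSlice e hKc z) hw
      (fun i => c i 0) (fun i => (hV _).2 ?_) (fun i => (c i).orthonormal.1 0)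
      (fun i => {r : ℝ | r • c i 0 + z • c i 2 ∈ B i}) ?_
    · rw [← hc2 i]; simp [orthonormal_iff_ite.1 (c i).orthonormal]
    · rintro x ⟨hx, hxz⟩
      obtain ⟨i, bb, hbb, t, rfl⟩ := Set.mem_iUnion.1 (hcov hx)
      refine ⟨i, ?_⟩
      have hproj : planeProj (c i 1) (bb + t • u i) = bb := by
        simp [planeProj, hc1 i, inner_add_right, real_inner_smul_right, hBperp i bb hbb, hu i]
      rw [planeProj_eq_of_frame, hc2 i, hxz] at hproj
      show ⟪c i 0, bb + t • u i⟫_ℝ • c i 0 + z • c i 2 ∈ B i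
      rw [hc2 i, hproj]; exact hbb
  have hpairT : ∀ z ∈ Set.Ioc a z₀, ENNReal.ofReal W ≤ T z + T (z + H) := by
    intro z hz
    set t := (z - a) / H with ht
    have ht0 : 0 ≤ t := div_nonneg (by linarith [hz.1]) hH0.le
    have ht1 : t ≤ 1 := (div_le_one hH0).2 (by rw [hH, hz₀] at *; linarith [hz.2])
    have htH : t * H = z - a := div_mul_cancel₀ _ hH0.ne'
    have e1 : t * z₀ + (1 - t) * ⟪e, pa⟫_ℝ = z := by
      rw [show z₀ = a + H by rw [hz₀, hH]; ring]
      show t * (a + H) + (1 - t) * a = z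
      linear_combination htH
    have e2 : (1 - t) * z₀ + (1 - (1 - t)) * ⟪e, pb⟫_ℝ = z + H := by
      show (1 - t) * z₀ + (1 - (1 - t)) * b = z + H
      rw [show b = z₀ + H by rw [hz₀, hH]; ring]
      have : z₀ = a + H := by rw [hz₀, hH]; ring
      linear_combination htH + this
    have h1 := hother pa hpa t ht0 ht1
    have h2 := hother pb hpb (1 - t) (by linarith) (by linarith)
    rw [e1] at h1; rw [e2] at h2
    calc ENNReal.ofReal W = ENNReal.ofReal (t * W) + ENNReal.ofReal ((1 - t) * W) := by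
          rw [← ENNReal.ofReal_add (mul_nonneg ht0 hW) (mul_nonneg (by linarith) hW)]; ring_nf
      _ ≤ T z + T (z + H) := add_le_add (hbang _ _ h1) (hbang _ _ h2)
  have hshift : ∫⁻ z in Set.Ioc a z₀, T (z + H) = ∫⁻ z in Set.Ioc z₀ b, T z := by
    rw [← lintegral_indicator measurableSet_Ioc, ← lintegral_indicator measurableSet_Ioc,
      ← lintegral_add_right_eq_self (fun z => (Set.Ioc z₀ b).indicator T z) H]
    refine lintegral_congr fun z => ?_
    have hiff : z + H ∈ Set.Ioc z₀ b ↔ z ∈ Set.Ioc a z₀ := by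
      simp only [Set.mem_Ioc, hz₀, hH]; constructor <;> rintro ⟨h1, h2⟩ <;> constructor <;> linarith
    by_cases hz : z ∈ Set.Ioc a z₀
    · simp [hz, hiff.2 hz]
    · simp [hz, mt hiff.1 hz]
  calc minProjArea K / 2 = ENNReal.ofReal (W * H) := by
        have : W * H = A / 2 := by
          rw [hWdef, hH]; field_simp [(sub_pos.2 hab).ne']
        rw [this, ENNReal.ofReal_div_of_pos two_pos, ENNReal.ofReal_toReal hfin]
        simp
    _ = ∫⁻ _ in Set.Ioc a z₀, ENNReal.ofReal W := by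
        rw [setLIntegral_const, Real.volume_Ioc, ← ENNReal.ofReal_mul hW,
          show z₀ - a = H by rw [hz₀, hH]; ring]
    _ ≤ ∫⁻ z in Set.Ioc a z₀, (T z + T (z + H)) :=
        setLIntegral_mono' measurableSet_Ioc hpairT
    _ = (∫⁻ z in Set.Ioc a z₀, T z) + ∫⁻ z in Set.Ioc z₀ b, T z := by
        rw [lintegral_add_left hTmeas, hshift]
    _ = ∫⁻ z in Set.Ioc a z₀ ∪ Set.Ioc z₀ b, T z :=
        (lintegral_union measurableSet_Ioc
          (Set.Ioc_disjoint_Ioc.2 (by simp))).symm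
    _ ≤ ∫⁻ z, T z := setLIntegral_le_lintegral _ _
    _ = ∑ i, planeArea (u i) (B i) := by
        rw [lintegral_finsetSum _ fun i _ => hFmeas i]
        exact Finset.sum_congr rfl fun i _ => by
          rw [← hc1 i, planeArea_eq_lintegral (c i) (hB i)]

end

end Vale.Agent.P243
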