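import Mathlib.MeasureTheory.Measure.Haar.InnerProductSpace
import Mathlib.Analysis.InnerProductSpace.PiL2
import Mathlib.Analysis.Convex.Basic

/-!
Cylinders in three-space and areas in the planes orthogonal to their axes.
-/

namespace Vale.Agent.P243

open MeasureTheory
open scoped InnerProductSpace

noncomputable section

/-- Euclidean three-space. -/
abbrev R3 : Type := EuclideanSpace ℝ (Fin 3)

/-- Orthogonal projection onto the plane orthogonal to the unit vector `u`. -/
def planeProj (u x : R3) : R3 := x - ⟪u, x⟫_ℝ • u

/-- Area of a subset `S` of the plane orthogonal to the unit vector `u`: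
the volume of the prism over it of height one in direction `u`. -/
def planeArea (u : R3) (S : Set R3) : ENNReal :=
  volume {x : R3 | planeProj u x ∈ S ∧ ⟪u, x⟫_ℝ ∈ Set.Icc (0 : ℝ) 1}

/-- The cylinder with axis direction `u` over the base `B`. -/
def cylinder (u : R3) (B : Set R3) : Set R3 := {x | ∃ b ∈ B, ∃ t : ℝ, x = b + t • u}

/-- The smallest area of an orthogonal projection onto a plane. -/
def minProjArea (K : Set R3) : ENNReal :=
  ⨅ (u : R3) (_ : ‖u‖ = 1), planeArea u (planeProj u '' K)

end

end Vale.Agent.P243
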